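import Vale.Agent.P058.Disproof
import Vale.Agent.P058.Generic

/-!
# P058 — spherical does not imply Ramsey, and Ramsey does not imply subtransitive
-/

namespace Vale.Agent.Results.P058.BothFalse

open Vale.Agent.P058 MeasureTheory

theorem result :
    (∃ A : Set (EuclideanSpace ℝ (Fin 2)), A.ncard = 4 ∧ A ⊆ Metric.sphere 0 1 ∧
      IsRamsey A ∧ ¬ IsSubtransitive A) ∧
    (∃ B : Set (EuclideanSpace ℝ (Fin 2)), B.ncard = 7 ∧ B ⊆ Metric.sphere 0 1 ∧
      ¬ IsRamsey B) ∧
    (∀ x : ℝ, 0 < x → x ≤ 1 / 2 → IsRamsey (kite x)) ∧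
    (∀ n : ℕ, 7 ≤ n → ∀ (o : EuclideanSpace ℝ (Fin 2)) (ρ : ℝ), 0 < ρ →
      ∀ᵐ θ : Fin n → ℝ, ¬ IsRamsey (Set.range fun j =>
        o + ρ • (!₂[Real.cos (θ j), Real.sin (θ j)] : EuclideanSpace ℝ (Fin 2)))) := by
  have h1 : (1 : ℝ) < Real.sqrt 2 := by
    rw [show (1 : ℝ) = Real.sqrt 1 from Real.sqrt_one.symm]
    exact Real.sqrt_lt_sqrt (by norm_num) (by norm_num)
  have h2 : Real.sqrt 2 ≤ 3 / 2 := by
    rw [Real.sqrt_le_left (by norm_num)]
    norm_num
  refine ⟨⟨kite (Real.sqrt 2 - 1), ?_, ?_, isRamsey_kite (by linarith) (by linarith),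
    not_isSubtransitive_kite_sqrt_two⟩, ?_, fun x => isRamsey_kite,
    fun _ hn o _ hρ => ae_not_isRamsey hn o hρ⟩
  · have hinj : Function.Injective (kiteV (Real.sqrt 2 - 1)) := by
      intro a b hab
      have h := dist_sq_kiteV (x := Real.sqrt 2 - 1) (by nlinarith) a b
      rw [hab, dist_self] at h
      have hs : Real.sqrt 2 ^ 2 = 2 := Real.sq_sqrt (by norm_num)
      by_contra hne
      fin_cases a <;> fin_cases b <;> simp [alphaM, betaM] at h hne <;> nlinarith
    rw [← range_kiteV, ← Set.image_univ, Set.ncard_image_of_injective _ hinj, Set.ncard_univ,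
      Nat.card_eq_fintype_card, Fintype.card_fin]
  · have hs : Real.sqrt (1 - (Real.sqrt 2 - 1) ^ 2) ^ 2 = 1 - (Real.sqrt 2 - 1) ^ 2 :=
      Real.sq_sqrt (by nlinarith)
    intro v hv
    rw [← range_kiteV] at hv
    obtain ⟨a, rfl⟩ := hv
    rw [mem_sphere_zero_iff_norm]
    have : ‖kiteV (Real.sqrt 2 - 1) a‖ ^ 2 = 1 := by
      rw [EuclideanSpace.norm_sq_eq, Fin.sum_univ_two, Real.norm_eq_abs, Real.norm_eq_abs, sq_abs,
        sq_abs]
      fin_cases a <;> simp [kiteV] <;> linarith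
    nlinarith [norm_nonneg (kiteV (Real.sqrt 2 - 1) a)]
  · obtain ⟨z, hz⟩ := (ae_algebraicIndependent (g := id) measurable_id
      (fun y => by simp) 1).exists
    have ht : Transcendental ℚ (z 0) := hz.transcendental 0
    obtain ⟨lam, hlam0, hlam⟩ : ∃ lam : ℝ, 0 < lam ∧ Transcendental ℚ lam := by
      rcases lt_trichotomy (z 0) 0 with h | h | h
      · refine ⟨- z 0, by linarith, fun h' => ht ?_⟩
        have := h'.neg
        rwa [neg_neg] at this
      · exfalso
        apply ht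
        rw [h]
        exact isAlgebraic_zero
      · exact ⟨z 0, h, ht⟩
    refine ⟨Set.range fun j : Fin 7 => circ (Real.sqrt (lam + (j : ℕ))), ?_, ?_,
      not_isRamsey_sqrt hlam0 hlam⟩
    · have hinj : Function.Injective fun j : Fin 7 => circ (Real.sqrt (lam + (j : ℕ))) := by
        intro i j hij
        have h := (Real.sqrt_inj (by positivity) (by positivity)).1 (circ_injective hij)
        have h' : ((i : ℕ) : ℝ) = ((j : ℕ) : ℝ) := by linarith
        exact Fin.ext (by exact_mod_cast h')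
      rw [← Set.image_univ, Set.ncard_image_of_injective _ hinj, Set.ncard_univ,
        Nat.card_eq_fintype_card, Fintype.card_fin]
    · rintro _ ⟨j, rfl⟩
      rw [mem_sphere_zero_iff_norm]
      exact norm_circ _

end Vale.Agent.Results.P058.BothFalse
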