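import Vale.Agent.P058.Disproof

/-!
# P058 — the conjecture of Leader, Russell and Walters is false
-/

namespace Vale.Agent.Results.P058.LRWFalse

open Vale.Agent.P058

theorem result :
    (¬ ∀ (d : ℕ) (A : Set (EuclideanSpace ℝ (Fin d))), A.Finite → A.Nonempty →
      (IsRamsey A ↔ IsSubtransitive A)) ∧
    (∀ x : ℝ, 0 < x → x ≤ 1 / 2 → IsRamsey (kite x)) ∧
    ¬ IsSubtransitive (kite (Real.sqrt 2 - 1)) ∧
    (∀ x : ℝ, 0 < x → x ≤ 1 → Transcendental ℚ x → ¬ IsSubtransitive (kite x)) := by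
  have h1 : (1 : ℝ) < Real.sqrt 2 := by
    rw [show (1 : ℝ) = Real.sqrt 1 from Real.sqrt_one.symm]
    exact Real.sqrt_lt_sqrt (by norm_num) (by norm_num)
  have h2 : Real.sqrt 2 ≤ 3 / 2 := by
    rw [Real.sqrt_le_left (by norm_num)]
    norm_num
  refine ⟨fun h => ?_, fun x => isRamsey_kite, not_isSubtransitive_kite_sqrt_two,
    fun x => not_isSubtransitive_kite_of_transcendental⟩
  exact not_isSubtransitive_kite_sqrt_two ((h 2 (kite (Real.sqrt 2 - 1))
    (by simp [kite]) ⟨!₂[-1, 0], by simp [kite]⟩).1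
    (isRamsey_kite (by linarith) (by linarith)))

end Vale.Agent.Results.P058.LRWFalse
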