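import Vale.Agent.P058.Disproof
import Vale.Agent.P058.Generic
import Vale.Agent.P058.Kite2

/-!
# P058 — all right kites are Ramsey, almost none of them is subtransitive
-/

namespace Vale.Agent.Results.P058.RightKites

open Vale.Agent.P058 MeasureTheory

theorem result :
    (¬ ∀ (d : ℕ) (A : Set (EuclideanSpace ℝ (Fin d))), A.Finite → A.Nonempty →
      (IsRamsey A ↔ IsSubtransitive A)) ∧
    (¬ ∀ (d : ℕ) (A : Set (EuclideanSpace ℝ (Fin d))), A.Finite → A.Nonempty →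
      (IsRamsey A ↔ ∃ o ρ, A ⊆ Metric.sphere o ρ)) ∧
    (∀ x : ℝ, 0 < x → x < 1 → IsRamsey (kite x)) ∧
    (∀ x : ℝ, 0 < x → x < 1 → Transcendental ℚ x → ¬ IsSubtransitive (kite x)) ∧
    ¬ IsSubtransitive (kite (Real.sqrt 2 - 1)) ∧
    (∀ n : ℕ, 7 ≤ n → ∀ (o : EuclideanSpace ℝ (Fin 2)) (ρ : ℝ), 0 < ρ →
      ∀ᵐ θ : Fin n → ℝ, ¬ IsRamsey (Set.range fun j =>
        o + ρ • (!₂[Real.cos (θ j), Real.sin (θ j)] : EuclideanSpace ℝ (Fin 2)))) := by
  have h1 : (1 : ℝ) < Real.sqrt 2 := by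
    rw [show (1 : ℝ) = Real.sqrt 1 from Real.sqrt_one.symm]
    exact Real.sqrt_lt_sqrt (by norm_num) (by norm_num)
  have h2 : Real.sqrt 2 ≤ 3 / 2 := by
    rw [Real.sqrt_le_left (by norm_num)]
    norm_num
  refine ⟨fun h => ?_, fun h => ?_, fun x => isRamsey_kite_all,
    fun x h0 h1 => not_isSubtransitive_kite_of_transcendental h0 h1.le,
    not_isSubtransitive_kite_sqrt_two, fun _ hn o _ hρ => ae_not_isRamsey hn o hρ⟩
  · exact not_isSubtransitive_kite_sqrt_two ((h 2 (kite (Real.sqrt 2 - 1))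
      (by simp [kite]) ⟨!₂[-1, 0], by simp [kite]⟩).1
      (isRamsey_kite (by linarith) (by linarith)))
  · obtain ⟨θ, hθ⟩ := (ae_not_isRamsey (n := 7) le_rfl 0 one_pos).exists
    apply hθ
    refine (h 2 _ (Set.finite_range _) (Set.range_nonempty _)).2 ⟨0, 1, ?_⟩
    rintro _ ⟨j, rfl⟩
    rw [mem_sphere_zero_iff_norm]
    change ‖(0 : EuclideanSpace ℝ (Fin 2)) + (1 : ℝ) • !₂[Real.cos (θ j), Real.sin (θ j)]‖ = 1
    rw [zero_add, one_smul]
    have : ‖(!₂[Real.cos (θ j), Real.sin (θ j)] : EuclideanSpace ℝ (Fin 2))‖ ^ 2 = 1 := by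
      rw [EuclideanSpace.norm_sq_eq, Fin.sum_univ_two, Real.norm_eq_abs, Real.norm_eq_abs, sq_abs,
        sq_abs]
      simp only [Matrix.cons_val_zero, Matrix.cons_val_one]
      exact Real.cos_sq_add_sin_sq _
    nlinarith [norm_nonneg (!₂[Real.cos (θ j), Real.sin (θ j)] : EuclideanSpace ℝ (Fin 2))]

end Vale.Agent.Results.P058.RightKites
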