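import Vale.Agent.P058.Generic

/-!
# P058 — spherical sets need not be Ramsey
-/

namespace Vale.Agent.Results.P058.SphericalNotRamsey

open Vale.Agent.P058 MeasureTheory

theorem result :
    (∀ n : ℕ, 7 ≤ n → ∀ (o : EuclideanSpace ℝ (Fin 2)) (ρ : ℝ), 0 < ρ →
      ∀ᵐ θ : Fin n → ℝ, ¬ IsRamsey (Set.range fun j =>
        o + ρ • (!₂[Real.cos (θ j), Real.sin (θ j)] : EuclideanSpace ℝ (Fin 2)))) ∧
    (∀ lam : ℝ, 0 < lam → Transcendental ℚ lam →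
      ¬ IsRamsey (Set.range fun j : Fin 7 => circ (Real.sqrt (lam + (j : ℕ))))) ∧
    (∀ (ι : Type) [Fintype ι] (d : ℕ) (p : ι → EuclideanSpace ℝ (Fin d)),
      affineSpan ℝ (Set.range p) = ⊤ → IsRamsey (Set.range p) →
      ∀ (φ : ι → ℝ → ℝ) (θ : Fin d → Fin d → ℝ →+ ℝ),
        (∀ (o : ℝ) (u : Fin d → ℝ),
          ∑ j, φ j (o + ∑ a, p j a * u a) = ∑ a, ∑ b, θ a b (u a * u b)) →
        ∑ a, θ a a 1 = 0) :=
  ⟨fun _ hn o _ hρ => ae_not_isRamsey hn o hρ, fun _ h0 ht => not_isRamsey_sqrt h0 ht,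
    fun _ _ _ p hp hR φ θ h => by
      by_contra hc
      exact not_isRamsey_of_identity p hp φ θ h hc hR⟩

end Vale.Agent.Results.P058.SphericalNotRamsey
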